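import Vale.Agent.P181.NR.Defs
import Vale.Agent.P181.TL.H214.UpB
import Mathlib.Algebra.Order.Antidiag.FinsuppEquiv

set_option autoImplicit false

/-!
# P181, NR (N6): the upper bound

`UpB` for row two, then one coefficient for each family of degrees in every other row.
-/

open MvPolynomial

namespace Vale.Agent.P181.NR.H214

open Vale.Agent.P181.T4 (HW)
open Vale.Agent.P181.H280 (plethMult)
open Vale.Agent.P181.TL.H214 (cf cf_mem coeff_cf ins_rs r0 rs)

/-- Strip the first row. -/
theorem strip_one (a m : ℕ) (mu : Fin (m + 1) → ℕ) :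
    Module.finrank ℂ (HW (m + 1) (Fin a) mu) ≤
      (a + mu 0).choose (mu 0) * Module.finrank ℂ (HW m (Fin a) fun i => mu i.succ) := by
  classical
  let S : Finset (Fin a →₀ ℕ) := Finset.finsuppAntidiag Finset.univ (mu 0)
  let L : HW (m + 1) (Fin a) mu →ₗ[ℂ] (S → HW m (Fin a) fun i => mu i.succ) :=
    LinearMap.pi fun d => ((cf ⇑d.1).comp (HW (m + 1) (Fin a) mu).subtype).codRestrict _
      fun f => cf_mem f.2 ⇑d.1
  have hL : Function.Injective L := by
    rw [← LinearMap.ker_eq_bot, LinearMap.ker_eq_bot']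
    rintro ⟨f, hf⟩ h
    apply Subtype.ext
    change f = 0
    have h5 : ∀ d : S, cf ⇑d.1 f = 0 := fun d => congrArg Subtype.val (congrFun h d)
    apply MvPolynomial.ext
    intro v
    rw [coeff_zero]
    by_contra hv
    have h6 : ∑ j, v (0, j) = mu 0 := hf.1 v hv 0
    have h7 : Finsupp.equivFunOnFinite.symm (r0 v) ∈ S := by
      rw [Finset.mem_finsuppAntidiag]
      exact ⟨h6, Finset.subset_univ _⟩
    have h8 := coeff_cf (r0 v) f (rs v)
    have h9 : cf (r0 v) f = 0 := h5 ⟨_, h7⟩
    rw [h9, coeff_zero, ins_rs] at h8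
    exact hv h8.symm
  have h := LinearMap.finrank_le_finrank_of_injective hL
  rw [Module.finrank_pi_fintype, Finset.sum_const, Finset.card_univ, smul_eq_mul,
    Fintype.card_coe] at h
  refine h.trans (Nat.mul_le_mul_right _ ?_)
  have h1 : S.card = (a + mu 0 - 1).choose (mu 0) := by
    rw [Finset.card_finsuppAntidiag_nat_eq_choose, Finset.card_univ, Fintype.card_fin]
  rw [h1]
  exact Nat.choose_le_choose _ (Nat.sub_le _ _)

/-- All rows. -/
theorem strip (a m : ℕ) (mu : Fin m → ℕ) :
    Module.finrank ℂ (HW m (Fin a) mu) ≤ ∏ i, (a + mu i).choose (mu i) := by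
  induction m with
  | zero =>
    let e := (MvPolynomial.isEmptyAlgEquiv ℂ (Fin 0 × Fin a)).toLinearEquiv
    have : Module.Finite ℂ (MvPolynomial (Fin 0 × Fin a) ℂ) := Module.Finite.equiv e.symm
    rw [Finset.univ_eq_empty, Finset.prod_empty]
    refine (Submodule.finrank_le _).trans ?_
    rw [e.finrank_eq, Module.finrank_self]
  | succ m ih =>
    rw [Fin.prod_univ_succ]
    exact (strip_one a m mu).trans (Nat.mul_le_mul_left _ (ih _))

/-- **(N6)** -/
theorem upR : UpR := by
  intro k a b lam _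
  exact (TL.H214.upB a b k lam).trans (Nat.mul_le_mul_left _ (strip a k _))

end Vale.Agent.P181.NR.H214
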